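import Mathlib

/-!
Direct finiteness is decided by the subgroup generated by the support of one factor alone:
if `a` is supported in a subgroup `H` with `K[H]` directly finite and `a * b = 1` or `b * a = 1` in `K[G]`,
with `b` arbitrary, then `b` is supported in `H` and `a`, `b` are two-sided inverses.
-/

namespace Vale.Agent.Results.P194.A_local

open scoped Classical

variable {K G : Type*} [Field K] [Group G]

/-- `x` lies in the subalgebra `K[H]` of `K[G]`. -/
def SuppIn (H : Subgroup G) (x : MonoidAlgebra K G) : Prop :=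
  ∀ g, x.coeff g ≠ 0 → g ∈ H

/-- `K[H]` is directly finite, stated inside `K[G]`. -/
def DirectlyFiniteOn (K : Type*) [Field K] {G : Type*} [Group G] (H : Subgroup G) : Prop :=
  ∀ x y : MonoidAlgebra K G, SuppIn H x → SuppIn H y → x * y = 1 → y * x = 1

theorem exists_of_coeff_mul_ne {x y : MonoidAlgebra K G} {g : G} (hg : (x * y).coeff g ≠ 0) :
    ∃ u v, x.coeff u ≠ 0 ∧ y.coeff v ≠ 0 ∧ u * v = g := by
  rw [MonoidAlgebra.coeff_mul] at hg
  unfold Finsupp.sum at hg
  obtain ⟨u, hu, hne⟩ := Finset.exists_ne_zero_of_sum_ne_zero hg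
  obtain ⟨v, hv, hne'⟩ := Finset.exists_ne_zero_of_sum_ne_zero hne
  refine ⟨u, v, Finsupp.mem_support_iff.mp hu, Finsupp.mem_support_iff.mp hv, ?_⟩
  by_contra h
  exact hne' (if_neg h)

/-- The two parts of `b`. -/
noncomputable def inPart (H : Subgroup G) (b : MonoidAlgebra K G) : MonoidAlgebra K G :=
  MonoidAlgebra.ofCoeff (Finsupp.filter (· ∈ H) b.coeff)

noncomputable def outPart (H : Subgroup G) (b : MonoidAlgebra K G) : MonoidAlgebra K G :=
  MonoidAlgebra.ofCoeff (Finsupp.filter (fun g => ¬ g ∈ H) b.coeff)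

theorem in_add_out (H : Subgroup G) (b : MonoidAlgebra K G) : inPart H b + outPart H b = b := by
  ext g
  by_cases hg : g ∈ H <;> simp [inPart, outPart, hg, Finsupp.filter_apply]

theorem inPart_suppIn (H : Subgroup G) (b : MonoidAlgebra K G) : SuppIn H (inPart H b) := by
  intro g hg
  by_contra hn
  apply hg
  simp [inPart, hn, Finsupp.filter_apply]

theorem outPart_out (H : Subgroup G) (b : MonoidAlgebra K G) :
    ∀ g, (outPart H b).coeff g ≠ 0 → g ∉ H := by
  intro g hg hn
  apply hg
  simp [outPart, hn, Finsupp.filter_apply]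

theorem coeff_one_out {H : Subgroup G} {g : G} (hg : g ∉ H) : (1 : MonoidAlgebra K G).coeff g = 0 := by
  rw [MonoidAlgebra.one_def, MonoidAlgebra.coeff_single, Finsupp.single_apply, if_neg]
  rintro rfl
  exact hg H.one_mem

/-- `a * inPart b = 1` when `a * b = 1`, for `a` supported in `H`. -/
theorem mul_inPart {H : Subgroup G} {a b : MonoidAlgebra K G} (ha : SuppIn H a) (hab : a * b = 1) :
    a * inPart H b = 1 := by
  have h1 : a * inPart H b + a * outPart H b = 1 := by rw [← mul_add, in_add_out, hab]
  ext g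
  by_cases hg : g ∈ H
  · have h0 : (a * outPart H b).coeff g = 0 := by
      by_contra hne
      obtain ⟨u, v, hu, hv, rfl⟩ := exists_of_coeff_mul_ne hne
      exact outPart_out H b v hv ((H.mul_mem_cancel_left (ha u hu)).mp hg)
    have h2 := congrArg (fun f : MonoidAlgebra K G => f.coeff g) h1
    simp only [MonoidAlgebra.coeff_add, Finsupp.add_apply, h0, add_zero] at h2
    exact h2
  · rw [coeff_one_out hg]
    by_contra hne
    obtain ⟨u, v, hu, hv, rfl⟩ := exists_of_coeff_mul_ne hne
    exact hg (H.mul_mem (ha u hu) (inPart_suppIn H b v hv))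

/-- `inPart b * a = 1` when `b * a = 1`, for `a` supported in `H`. -/
theorem inPart_mul {H : Subgroup G} {a b : MonoidAlgebra K G} (ha : SuppIn H a) (hab : b * a = 1) :
    inPart H b * a = 1 := by
  have h1 : inPart H b * a + outPart H b * a = 1 := by rw [← add_mul, in_add_out, hab]
  ext g
  by_cases hg : g ∈ H
  · have h0 : (outPart H b * a).coeff g = 0 := by
      by_contra hne
      obtain ⟨u, v, hu, hv, rfl⟩ := exists_of_coeff_mul_ne hne
      exact outPart_out H b u hu ((H.mul_mem_cancel_right (ha v hv)).mp hg)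
    have h2 := congrArg (fun f : MonoidAlgebra K G => f.coeff g) h1
    simp only [MonoidAlgebra.coeff_add, Finsupp.add_apply, h0, add_zero] at h2
    exact h2
  · rw [coeff_one_out hg]
    by_contra hne
    obtain ⟨u, v, hu, hv, rfl⟩ := exists_of_coeff_mul_ne hne
    exact hg (H.mul_mem (inPart_suppIn H b u hu) (ha v hv))

/-- An abelian subgroup has a directly finite group algebra. -/
theorem df_of_comm {H : Subgroup G} (hc : ∀ x ∈ H, ∀ y ∈ H, x * y = y * x) : DirectlyFiniteOn K H := by
  intro x y hx hy hxy
  have hcomm : y * x = x * y := by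
    ext g
    rw [MonoidAlgebra.coeff_mul, MonoidAlgebra.coeff_mul, Finsupp.sum_comm]
    refine Finset.sum_congr rfl fun u hu => Finset.sum_congr rfl fun v hv => ?_
    have hu' := hx u (Finsupp.mem_support_iff.mp hu)
    have hv' := hy v (Finsupp.mem_support_iff.mp hv)
    show (if v * u = g then y.coeff v * x.coeff u else 0) = (if u * v = g then x.coeff u * y.coeff v else 0)
    rw [hc v hv' u hu', mul_comm (y.coeff v)]
  rw [hcomm, hxy]

/-- Let `a ∈ K[H]` and let `b ∈ K[G]` be arbitrary with `a * b = 1` or `b * a = 1`. If `K[H]` is directly finite, in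
particular if `H` is abelian, then `b ∈ K[H]` and `a * b = b * a = 1`. -/
theorem result {K G : Type*} [Field K] [Group G] (H : Subgroup G)
    (hH : DirectlyFiniteOn K H ∨ ∀ x ∈ H, ∀ y ∈ H, x * y = y * x) {a b : MonoidAlgebra K G}
    (ha : SuppIn H a) (hab : a * b = 1 ∨ b * a = 1) :
    SuppIn H b ∧ a * b = 1 ∧ b * a = 1 := by
  have hdf : DirectlyFiniteOn K H := hH.elim id df_of_comm
  rcases hab with hab | hab
  · have h1 := mul_inPart ha hab
    have h2 : inPart H b * a = 1 := hdf a _ ha (inPart_suppIn H b) h1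
    have hbp : b = inPart H b := by
      calc b = (inPart H b * a) * b := by rw [h2, one_mul]
        _ = inPart H b * (a * b) := mul_assoc _ _ _
        _ = inPart H b := by rw [hab, mul_one]
    refine ⟨hbp ▸ inPart_suppIn H b, hab, ?_⟩
    rw [hbp]
    exact h2
  · have h1 := inPart_mul ha hab
    have h2 : a * inPart H b = 1 := hdf _ a (inPart_suppIn H b) ha h1
    have hbp : b = inPart H b := by
      calc b = b * (a * inPart H b) := by rw [h2, mul_one]
        _ = (b * a) * inPart H b := (mul_assoc _ _ _).symm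
        _ = inPart H b := by rw [hab, one_mul]
    refine ⟨hbp ▸ inPart_suppIn H b, ?_, hab⟩
    rw [hbp]
    exact h2

end Vale.Agent.Results.P194.A_local
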