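import Mathlib

/-!
Direct finiteness in `K[G]` for one product `a b = 1`: only a subgroup carrying a translate of the
support of one factor matters.  The restriction of a function on `G` to a subgroup `H` is linear
over `K[H]`, which forces the other factor into `K[H]`.
-/

open MonoidAlgebra

namespace Vale.Agent.Results.P194.A_support

variable {K : Type*} [Field K] {G : Type*} [Group G]

/-- The inclusion `K[H] → K[G]`. -/
noncomputable abbrev inc (H : Subgroup G) : MonoidAlgebra K H →+* MonoidAlgebra K G :=
  MonoidAlgebra.mapDomainRingHom K H.subtype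

/-- Restriction of a function on `G` to the subgroup `H`, extended by zero. -/
noncomputable def proj (H : Subgroup G) (f : MonoidAlgebra K G) : MonoidAlgebra K G := by
  classical exact ofCoeff (Finsupp.filter (· ∈ H) f.coeff)

open Classical in
lemma proj_coeff (H : Subgroup G) (f : MonoidAlgebra K G) (g : G) :
    (proj H f).coeff g = if g ∈ H then f.coeff g else 0 := by
  simp only [proj, coeff_ofCoeff, Finsupp.filter_apply]

lemma inc_injective (H : Subgroup G) : Function.Injective (inc (K := K) H) :=
  mapDomain_injective H.subtype_injective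

lemma inc_single (H : Subgroup G) (h : H) (c : K) :
    inc (K := K) H (single h c) = single (h : G) c := by
  simp [inc, mapDomainRingHom, mapDomain_single]

lemma proj_one (H : Subgroup G) : proj H (1 : MonoidAlgebra K G) = 1 := by
  classical
  ext g
  rw [proj_coeff]
  by_cases hg : g ∈ H
  · rw [if_pos hg]
  · rw [if_neg hg, one_def, coeff_single_apply, if_neg]
    rintro rfl
    exact hg H.one_mem

lemma proj_add (H : Subgroup G) (f f' : MonoidAlgebra K G) :
    proj H (f + f') = proj H f + proj H f' := by
  classical
  ext g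
  simp only [proj_coeff, coeff_add, Finsupp.add_apply]
  split_ifs <;> simp

lemma proj_inc_mul (H : Subgroup G) (u : MonoidAlgebra K H) (f : MonoidAlgebra K G) :
    proj H (inc H u * f) = inc H u * proj H f := by
  classical
  induction u using MonoidAlgebra.induction_linear with
  | zero => ext g; simp [proj_coeff]
  | add u v hu hv => rw [map_add, add_mul, add_mul, proj_add, hu, hv]
  | single h c =>
    rw [inc_single]
    ext g
    rw [proj_coeff, coeff_single_mul_apply, coeff_single_mul_apply, proj_coeff]
    by_cases hg : g ∈ H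
    · have : (h : G)⁻¹ * g ∈ H := H.mul_mem (H.inv_mem h.2) hg
      rw [if_pos hg, if_pos this]
    · have : (h : G)⁻¹ * g ∉ H := fun hh => hg (by
        have := H.mul_mem h.2 hh
        simpa using this)
      rw [if_neg hg, if_neg this, mul_zero]

lemma proj_mul_inc (H : Subgroup G) (u : MonoidAlgebra K H) (f : MonoidAlgebra K G) :
    proj H (f * inc H u) = proj H f * inc H u := by
  classical
  induction u using MonoidAlgebra.induction_linear with
  | zero => ext g; simp [proj_coeff]
  | add u v hu hv => rw [map_add, mul_add, mul_add, proj_add, hu, hv]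
  | single h c =>
    rw [inc_single]
    ext g
    rw [proj_coeff, coeff_mul_single_apply, coeff_mul_single_apply, proj_coeff]
    by_cases hg : g ∈ H
    · have : g * (h : G)⁻¹ ∈ H := H.mul_mem hg (H.inv_mem h.2)
      rw [if_pos hg, if_pos this]
    · have : g * (h : G)⁻¹ ∉ H := fun hh => hg (by
        have := H.mul_mem hh h.2
        simpa using this)
      rw [if_neg hg, if_neg this, zero_mul]

lemma exists_inc (H : Subgroup G) (f : MonoidAlgebra K G) (hf : ∀ g, f.coeff g ≠ 0 → g ∈ H) :
    ∃ u, inc H u = f := by
  refine ⟨comapDomain H.subtype H.subtype_injective f, ?_⟩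
  refine mapDomain_comapDomain ?_ _
  intro g hg
  have : f.coeff g ≠ 0 := by simpa using hg
  exact ⟨⟨g, hf g this⟩, rfl⟩

lemma proj_supp (H : Subgroup G) (f : MonoidAlgebra K G) (g : G) (hg : (proj H f).coeff g ≠ 0) :
    g ∈ H := by
  classical
  rw [proj_coeff] at hg
  by_contra hn
  exact hg (if_neg hn)

lemma core_left (H : Subgroup G) [IsDedekindFiniteMonoid (MonoidAlgebra K H)]
    (u : MonoidAlgebra K H) (b : MonoidAlgebra K G) (h : inc H u * b = 1) : b * inc H u = 1 := by
  have h1 : inc H u * proj H b = 1 := by rw [← proj_inc_mul, h, proj_one]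
  obtain ⟨v, hv⟩ := exists_inc H (proj H b) (proj_supp H b)
  have h2 : u * v = 1 := by
    apply inc_injective H
    rw [map_mul, hv, h1, map_one]
  have h3 : v * u = 1 := mul_eq_one_symm h2
  have h4 : proj H b * inc H u = 1 := by rw [← hv, ← map_mul, h3, map_one]
  have h5 : inc H u * (b - proj H b) = 0 := by rw [mul_sub, h, h1, sub_self]
  have h6 : b - proj H b = 0 := by
    calc b - proj H b = (proj H b * inc H u) * (b - proj H b) := by rw [h4, one_mul]
      _ = proj H b * (inc H u * (b - proj H b)) := mul_assoc _ _ _
      _ = 0 := by rw [h5, mul_zero]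
  have h7 : b = proj H b := sub_eq_zero.mp h6
  calc b * inc H u = proj H b * inc H u := by rw [← h7]
    _ = 1 := h4

lemma core_right (H : Subgroup G) [IsDedekindFiniteMonoid (MonoidAlgebra K H)]
    (u : MonoidAlgebra K H) (a : MonoidAlgebra K G) (h : a * inc H u = 1) : inc H u * a = 1 := by
  have h1 : proj H a * inc H u = 1 := by rw [← proj_mul_inc, h, proj_one]
  obtain ⟨v, hv⟩ := exists_inc H (proj H a) (proj_supp H a)
  have h2 : v * u = 1 := by
    apply inc_injective H
    rw [map_mul, hv, h1, map_one]
  have h3 : u * v = 1 := mul_eq_one_symm h2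
  have h4 : inc H u * proj H a = 1 := by rw [← hv, ← map_mul, h3, map_one]
  have h5 : (a - proj H a) * inc H u = 0 := by rw [sub_mul, h, h1, sub_self]
  have h6 : a - proj H a = 0 := by
    calc a - proj H a = (a - proj H a) * (inc H u * proj H a) := by rw [h4, mul_one]
      _ = ((a - proj H a) * inc H u) * proj H a := (mul_assoc _ _ _).symm
      _ = 0 := by rw [h5, zero_mul]
  have h7 : a = proj H a := sub_eq_zero.mp h6
  calc inc H u * a = inc H u * proj H a := by rw [← h7]
    _ = 1 := h4

lemma single_inv_mul (x : G) : (single x⁻¹ (1 : K)) * (single x (1 : K)) = 1 := by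
  rw [single_mul_single]; simp [one_def]

lemma single_mul_inv (x : G) : (single x (1 : K)) * (single x⁻¹ (1 : K)) = 1 := by
  rw [single_mul_single]; simp [one_def]

/-- The reduction: a translate of the support of one factor lies in `H`. -/
theorem reduction (a b : MonoidAlgebra K G) (hab : a * b = 1) (H : Subgroup G)
    [IsDedekindFiniteMonoid (MonoidAlgebra K H)] (x : G)
    (hs : (∀ g, a.coeff g ≠ 0 → g * x⁻¹ ∈ H) ∨ (∀ g, b.coeff g ≠ 0 → x⁻¹ * g ∈ H)) :
    b * a = 1 := by
  have e1 := single_inv_mul (K := K) x
  have e2 := single_mul_inv (K := K) x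
  rcases hs with hs | hs
  · obtain ⟨u, hu⟩ := exists_inc H (a * single x⁻¹ (1 : K)) (by
      intro g hg
      rw [coeff_mul_single_apply] at hg
      have := hs (g * x⁻¹⁻¹) (by
        intro h0
        exact hg (by rw [h0, zero_mul]))
      simpa using this)
    have h1 : inc H u * (single x (1 : K) * b) = 1 := by
      rw [hu, ← mul_assoc, mul_assoc a, e1, mul_one, hab]
    have h2 := core_left H u _ h1
    rw [hu] at h2
    have h3 : single x (1 : K) * (b * (a * single x⁻¹ (1 : K))) = 1 := by
      rw [← mul_assoc]; exact h2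
    have h4 : b * (a * single x⁻¹ (1 : K)) = single x⁻¹ (1 : K) := by
      calc b * (a * single x⁻¹ (1 : K))
          = (single x⁻¹ (1 : K) * single x (1 : K)) * (b * (a * single x⁻¹ (1 : K))) := by
            rw [e1, one_mul]
        _ = single x⁻¹ (1 : K) * (single x (1 : K) * (b * (a * single x⁻¹ (1 : K)))) :=
            mul_assoc _ _ _
        _ = single x⁻¹ (1 : K) := by rw [h3, mul_one]
    calc b * a = b * (a * (single x⁻¹ (1 : K) * single x (1 : K))) := by rw [e1, mul_one]
      _ = (b * (a * single x⁻¹ (1 : K))) * single x (1 : K) := by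
          simp only [mul_assoc]
      _ = 1 := by rw [h4, e1]
  · obtain ⟨u, hu⟩ := exists_inc H (single x⁻¹ (1 : K) * b) (by
      intro g hg
      rw [coeff_single_mul_apply] at hg
      have := hs (x⁻¹⁻¹ * g) (by
        intro h0
        exact hg (by rw [h0, mul_zero]))
      simpa using this)
    have h1 : (a * single x (1 : K)) * inc H u = 1 := by
      rw [hu, mul_assoc, ← mul_assoc (single x (1 : K)), e2, one_mul, hab]
    have h2 := core_right H u _ h1
    rw [hu] at h2
    have h3 : ((single x⁻¹ (1 : K) * b) * a) * single x (1 : K) = 1 := by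
      rw [mul_assoc]; exact h2
    have h4 : (single x⁻¹ (1 : K) * b) * a = single x⁻¹ (1 : K) := by
      calc (single x⁻¹ (1 : K) * b) * a
          = ((single x⁻¹ (1 : K) * b) * a) * (single x (1 : K) * single x⁻¹ (1 : K)) := by
            rw [e2, mul_one]
        _ = (((single x⁻¹ (1 : K) * b) * a) * single x (1 : K)) * single x⁻¹ (1 : K) :=
            (mul_assoc _ _ _).symm
        _ = single x⁻¹ (1 : K) := by rw [h3, one_mul]
    calc b * a = (single x (1 : K) * single x⁻¹ (1 : K)) * (b * a) := by rw [e2, one_mul]
      _ = single x (1 : K) * ((single x⁻¹ (1 : K) * b) * a) := by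
          simp only [mul_assoc]
      _ = 1 := by rw [h4, e2]

/-- The algebra of a commutative subgroup is directly finite. -/
lemma df_comm (H : Subgroup G) [IsMulCommutative H] :
    IsDedekindFiniteMonoid (MonoidAlgebra K H) := by
  have hH : ∀ p q : H, p * q = q * p := fun p q => IsMulCommutative.is_comm.comm p q
  have hc : ∀ u v : MonoidAlgebra K H, u * v = v * u := by
    intro u v
    induction u using MonoidAlgebra.induction_linear with
    | zero => simp
    | add u u' hu hu' => rw [add_mul, mul_add, hu, hu']
    | single p c =>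
      induction v using MonoidAlgebra.induction_linear with
      | zero => simp
      | add v v' hv hv' => rw [add_mul, mul_add, hv, hv']
      | single q d => rw [single_mul_single, single_mul_single, hH p q, mul_comm c d]
  exact ⟨fun {a b} h => by rw [hc]; exact h⟩

lemma exists_two {α : Type*} (s : Finset α) [Nonempty α] (hs : s.card ≤ 2) :
    ∃ x y : α, ∀ g ∈ s, g = x ∨ g = y := by
  classical
  have hc : s.card = 0 ∨ s.card = 1 ∨ s.card = 2 := by omega
  rcases hc with hc | hc | hc
  · obtain ⟨x⟩ := ‹Nonempty α›
    refine ⟨x, x, fun g hg => ?_⟩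
    rw [Finset.card_eq_zero] at hc
    simp [hc] at hg
  · obtain ⟨x, rfl⟩ := Finset.card_eq_one.mp hc
    exact ⟨x, x, fun g hg => Or.inl (by simpa using hg)⟩
  · obtain ⟨x, y, _, rfl⟩ := Finset.card_eq_two.mp hc
    exact ⟨x, y, fun g hg => by simpa using hg⟩

/-- **Main theorem.**  Let `K` be a field, `G` any group, `a b = 1` in `K[G]`.
(1) If for some subgroup `H` with `K[H]` directly finite and some `x`, the set `(supp a) x⁻¹` or the
set `x⁻¹ (supp b)` lies in `H`, then `b a = 1`.
(2) So `b a = 1` when `H` is commutative.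
(3) So `b a = 1` when `a` or `b` has at most two nonzero coefficients. -/
theorem result (a b : MonoidAlgebra K G) (hab : a * b = 1) :
    (∀ (H : Subgroup G) (x : G), IsDedekindFiniteMonoid (MonoidAlgebra K H) →
      ((∀ g, a.coeff g ≠ 0 → g * x⁻¹ ∈ H) ∨ (∀ g, b.coeff g ≠ 0 → x⁻¹ * g ∈ H)) → b * a = 1) ∧
    (∀ (H : Subgroup G) (x : G), IsMulCommutative H →
      ((∀ g, a.coeff g ≠ 0 → g * x⁻¹ ∈ H) ∨ (∀ g, b.coeff g ≠ 0 → x⁻¹ * g ∈ H)) → b * a = 1) ∧
    (a.coeff.support.card ≤ 2 → b * a = 1) ∧
    (b.coeff.support.card ≤ 2 → b * a = 1) := by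
  refine ⟨fun H x hd hs => reduction a b hab H x hs, fun H x hc hs => ?_, fun hs => ?_, fun hs => ?_⟩
  · have := df_comm (K := K) H
    exact reduction a b hab H x hs
  · obtain ⟨x, y, hxy⟩ := exists_two a.coeff.support hs
    have := df_comm (K := K) (Subgroup.zpowers (y * x⁻¹))
    refine reduction a b hab (Subgroup.zpowers (y * x⁻¹)) x (Or.inl fun g hg => ?_)
    rcases hxy g (Finsupp.mem_support_iff.mpr hg) with rfl | rfl
    · simp
    · exact Subgroup.mem_zpowers _
  · obtain ⟨x, y, hxy⟩ := exists_two b.coeff.support hs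
    have := df_comm (K := K) (Subgroup.zpowers (x⁻¹ * y))
    refine reduction a b hab (Subgroup.zpowers (x⁻¹ * y)) x (Or.inr fun g hg => ?_)
    rcases hxy g (Finsupp.mem_support_iff.mpr hg) with rfl | rfl
    · simp
    · exact Subgroup.mem_zpowers _

end Vale.Agent.Results.P194.A_support
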